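import Vale.Agent.P275OM.Cb
import Vale.Agent.P275B.Coc
import Vale.Agent.P275CC.Tw

/-!
# P275, the endomorphisms of the universal bundle over the character variety
-/

set_option linter.all false
set_option backward.isDefEq.respectTransparency false

open scoped Topology
open Filter Set Matrix Function
open P275CC
open Vale.Agent.P275GC (At)
open Vale.Agent.P275NA (Mn)
open Vale.Agent.P275ST (Rep XB deg Pc)
open Vale.Agent.P275XB (Mt Irr cj NW ep Ok irr_ep)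
open Vale.Agent.P275Z Vale.Agent.P275MO Vale.Agent.P275OM Vale.Agent.P275RL
open Vale.Agent.P275MM (Dc Gd IB)

noncomputable section

namespace Vale.Agent.P275TO

section abs

variable {g n : ℕ} {d : ℤ} [Ok g n d] {C : Type} [TopologicalSpace C] {κ : Type}
  {O : κ → Set (XB g n d)} {ρ : κ → XB g n d → Rep g n d}

theorem ex_cj {ρ ρ' : Rep g n d} (e : ρ'.pt = ρ.pt) : ∃ u, ep ρ = cj u (ep ρ') :=
  let ⟨P, h⟩ := P275NB.rep_pt_eq.1 e
  ⟨SpecialLinearGroup.toGL P, funext fun s => congrArg Subtype.val (h s)⟩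

theorem hh_blk {ρ ρ' : Rep g n d} {u} (e : ep ρ = cj u (ep ρ')) : hh (ep ρ) * hh (ep ρ') =
    fromBlocks (hh (ep ρ) * hh (ep ρ')).toBlocks₁₁ 0 0 (adj (u : Mt n)) := by
  rw [e, hh_cj (irr_ep ρ'), toBlocks_fromBlocks₁₁]

theorem ct_h {s : Set (XB g n d)} {ρ : XB g n d → Rep g n d} (h : ContinuousOn ρ s) :
    ContinuousOn (fun x => hh (ep (ρ x))) s :=
  ct_hh (fun i => (show Continuous fun ρ : Rep g n d => ep ρ i from continuous_subtype_val.comp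
    ((continuous_apply i).comp continuous_subtype_val)).comp_continuousOn h) fun x _ => irr_ep _

/-- the complement -/
def vb0 (op : ∀ a, IsOpen (O a)) (cov : ∀ x, ∃ a, x ∈ O a) (ct : ∀ a, ContinuousOn (ρ a) (O a))
    (pt : ∀ a, ∀ x ∈ O a, (ρ a x).pt = x) : VB (XB g n d) (Fin (NW (Fin g × Bool) n)) where
  ι := κ
  U := O
  op := op
  cov := cov
  g a b x := (hh (ep (ρ a x)) * hh (ep (ρ b x))).toBlocks₁₁
  ct a b := continuousOn_pi.2 fun _ => continuousOn_pi.2 fun _ => ctOn_ent (ctOn_mul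
    (ct_h ((ct a).mono inter_subset_left)) (ct_h ((ct b).mono inter_subset_right))) _ _
  id a x _ := by rw [hh_sq (irr_ep _), ← fromBlocks_one, toBlocks_fromBlocks₁₁]
  cc a b c x ha hb hc := by
    obtain ⟨u, e⟩ := ex_cj ((pt b x hb).trans (pt a x ha).symm)
    obtain ⟨v, e'⟩ := ex_cj ((pt c x hc).trans (pt b x hb).symm)
    have : hh (ep (ρ a x)) * hh (ep (ρ c x)) =
        (hh (ep (ρ a x)) * hh (ep (ρ b x))) * (hh (ep (ρ b x)) * hh (ep (ρ c x))) := by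
      rw [Matrix.mul_assoc, ← Matrix.mul_assoc (hh (ep (ρ b x))), hh_sq (irr_ep _), Matrix.one_mul]
    rw [this]
    conv_rhs => rw [hh_blk e, hh_blk e', fromBlocks_multiply, toBlocks_fromBlocks₁₁]
    simp

theorem iso_of (F : Wc g C) (T : TB (XB g n d × C) (Fin n)) (op : ∀ a, IsOpen (O a))
    (cov : ∀ x, ∃ a, x ∈ O a) (ct : ∀ a, ContinuousOn (ρ a) (O a))
    (pt : ∀ a, ∀ x ∈ O a, (ρ a x).pt = x) (i : κ → Option (Fin F.M) → T.ι)
    (Y : κ → Option (Fin F.M) → XB g n d × C → Mn n) (sub : ∀ a k, O a ×ˢ F.V k ⊆ T.U (i a k))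
    (cY : ∀ a k, ContinuousOn (Y a k) (O a ×ˢ F.V k))
    (nz : ∀ a k, ∀ y ∈ O a ×ˢ F.V k, (Y a k y).det ≠ 0)
    (law : ∀ a b k l, ∀ y ∈ O a ×ˢ F.V k, y ∈ O b ×ˢ F.V l → ∃ (u : GL (Fin n) ℂ) (s : ℂ),
      ep (ρ a y.1) = cj u (ep (ρ b y.1)) ∧
      Y a k y * wv (ρ a y.1).1 (F.w k l y.2) * u = s • (T.g (i a k) (i b l) y * Y b l y)) :
    (F.vb bg ct_bg bg_cwd).Iso (VB.sum ((vb0 op cov ct pt).pb ContinuousMap.fst) T.End) := by
  refine VB.iso_loc _ _ (κ := κ × Option (Fin F.M)) (fun c => O c.1 ×ˢ F.V c.2) (fun c => c.2)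
    (fun c => (c.1, i c.1 c.2))
    (fun c y => fromBlocks 1 0 0 (adj (Y c.1 c.2 y)) * hh (ep (ρ c.1 y.1)))
    (fun c => (op _).prod (F.opV _)) (fun y => ?_) (fun c y h => h.2)
    (fun c y h => ⟨h.1, sub _ _ h⟩) (fun c => ctOn_mul (ct_blk continuousOn_const continuousOn_const
      continuousOn_const (ctOn_adj (cY _ _) (nz _ _)))
      ((ct_h (ct c.1)).comp continuousOn_fst fun _ h => h.1)) (fun c c' y h h' => ?_)
    fun c y h => bij_mul (bij_fromBlocks (bij_of_det (by simp)) (bij_of_det (adj_det (nz _ _ y h))))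
      (bij_of_inv (hh_sq (irr_ep _)) (hh_sq (irr_ep _)))
  · obtain ⟨a, h⟩ := cov y.1
    obtain ⟨k, h'⟩ := F.covV y.2
    exact ⟨(a, k), h, h'⟩
  obtain ⟨u, s, e, e'⟩ := law _ _ _ _ y h h'
  have e1 : (F.vb bg ct_bg bg_cwd).g c.2 c'.2 y =
      big (ep (ρ c.1 y.1)) (wv (ρ c.1 y.1).1 (F.w c.2 c'.2 y.2)) := by
    rw [← bg_pt, pt _ _ h.1]
    rfl
  have e2 : hh (ep (ρ c.1 y.1)) = fromBlocks (hh (ep (ρ c.1 y.1)) * hh (ep (ρ c'.1 y.1))).toBlocks₁₁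
      0 0 (adj (u : Mt n)) * hh (ep (ρ c'.1 y.1)) := by
    rw [← hh_blk e, Matrix.mul_assoc, hh_sq (irr_ep _), Matrix.mul_one]
  have e3 := adj_of_eq (det_mul_ne (det_mul_ne (nz _ _ y h) (wv_det_ne _ _)) u.det_ne_zero) e'
  change _ = fromBlocks (hh (ep (ρ c.1 y.1)) * hh (ep (ρ c'.1 y.1))).toBlocks₁₁ 0 0
    (adj (T.g (i c.1 c.2) (i c'.1 c'.2) y)) * _
  rw [e1, big, Matrix.mul_assoc, ← Matrix.mul_assoc (hh _), ← Matrix.mul_assoc (hh _),
    hh_sq (irr_ep _), Matrix.one_mul]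
  conv_lhs => rw [e2]
  simp only [← Matrix.mul_assoc, fromBlocks_multiply, Matrix.one_mul, Matrix.mul_one,
    Matrix.mul_zero, Matrix.zero_mul, add_zero, zero_add, ← adj_mul, e3]

end abs

section flt

variable {C : Type} [TopologicalSpace C] [ChartedSpace ℂ C] [T1Space C] {A : At C}
  {l : P275NA.Cy A ℂ} {g n : ℕ} {p : C} {Rel : Dat C A.N n → Tup g n → Prop}
  (f : Flt A l g n p Rel)

/-- extension over the puncture -/
def ext {Z : Type} [One Z] (u : Pc p → Z) : C → Z := extend Subtype.val u 1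

theorem ext_val {Z : Type} [One Z] (u : Pc p → Z) (x : Pc p) : ext u x.1 = u x :=
  Subtype.val_injective.extend_apply _ _ x

theorem oe : Topology.IsOpenEmbedding (Subtype.val : Pc p → C) :=
  isOpen_compl_singleton.isOpenEmbedding_subtypeVal

/-- the cover of the curve -/
def wc : Wc g C where
  M := f.M
  U a := Subtype.val '' f.U a
  op a := oe.isOpenMap _ (f.cy.opn a)
  D := f.D
  opD := f.opn
  cov c := (eq_or_ne c p).imp (fun e : c = p => e ▸ f.mem) fun e =>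
    (f.cy.cov ⟨c, e⟩).imp fun _ h => ⟨_, h, rfl⟩
  γ a b := ext (f.γ a b)
  lc a b := by
    rintro _ ⟨x, h, rfl⟩ ⟨y, h', e⟩
    obtain rfl := Subtype.ext e
    rw [← oe.map_nhds_eq, eventually_map]
    simpa only [ext_val] using f.cy.lc a b y ⟨h, h'⟩
  mul a b e := by
    rintro _ ⟨x, h, rfl⟩ ⟨y, h', e⟩ ⟨z, h'', e'⟩
    obtain rfl := Subtype.ext e
    obtain rfl := Subtype.ext e'
    simpa only [ext_val] using f.cy.mul _ _ _ _ h h' h''
  z c := A.e f.k0 c - A.e f.k0 p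
  p := p
  mem := f.mem
  zp := sub_self _
  cov' c e := (f.cy.cov ⟨c, e⟩).imp fun _ h => ⟨_, h, rfl⟩
  θ a := ext (f.θ a)
  s := f.s
  hs := f.hs
  log a := by
    rintro _ ⟨x, h, rfl⟩ hD
    obtain ⟨a1, a2, a3⟩ := f.log a x h hD
    refine ⟨(congrArg _ (ext_val (f.θ a) x)).trans a1, oe.continuousAt_iff.1 (by
      simpa only [comp_def, ext_val] using a2), ?_⟩
    rintro b ⟨y, h', e⟩
    obtain rfl := Subtype.ext e
    simpa only [ext_val] using a3 b h'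

/-- the charts -/
def ik : Option (Fin f.M) → Fin A.N
  | none => f.k0
  | some a => f.k a

/-- the frames -/
def YY : Option (Fin f.M) → Dat C A.N n → C → Mn n
  | none, z => f.Y0 z
  | some a, z => ext (f.Y a z)

variable {f} {z z' : Dat C A.N n} {ρ ρ' : Tup g n} {c : C}

theorem V_sub : ∀ {k}, c ∈ (wc f).V k → c ∈ Dc A (ik f k)
  | none, h => f.sub0 c h
  | some a, ⟨x, h, e⟩ => e ▸ f.sub a x h

theorem Y_ne (r : Rel z ρ) (e : z.x = p) (e' : z.R = 0) :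
    ∀ {k}, c ∈ (wc f).V k → (YY f k z c).det ≠ 0
  | none, h => (f.law z ρ r e e').1 c h
  | some a, ⟨x, h, e0⟩ => by
    subst e0
    simpa only [YY, ext_val] using ((f.law z ρ r e e').2 a x h).1

theorem Y_law (gd : Gd A l z) (r : Rel z ρ) (e : z.x = p) (e' : z.R = 0) :
    ∀ {k m}, c ∈ (wc f).V k → c ∈ (wc f).V m → ∃ s : ℂ, YY f k z c * wv ρ ((wc f).w k m c) =
      s • (z.g (ik f k) (ik f m) (A.e (ik f k) c) * YY f m z c)
  | none, none, h, _ => ⟨1, by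
    rw [gd.one (V_sub h), one_smul, one_mul]
    exact (congrArg _ (wv_one ρ)).trans (mul_one _)⟩
  | some a, none, ⟨x, h, e0⟩, h' => by
    subst e0
    obtain ⟨s, hs⟩ := ((f.law z ρ r e e').2 a x h).2.2 h'
    exact ⟨s, ((congrArg _ (wv_one ρ)).trans (mul_one _)).trans ((ext_val _ x).trans hs)⟩
  | none, some a, h', ⟨x, h, e0⟩ => by
    subst e0
    obtain ⟨a1, -, a2⟩ := (f.law z ρ r e e').2 a x h
    obtain ⟨s, hs⟩ := a2 h'
    obtain ⟨t, ht⟩ := ex_smul_symm a1 hs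
    refine ⟨t, ((congrArg _ (wv_one ρ)).trans (mul_one _)).trans ?_⟩
    change f.Y0 z x = t • (z.g f.k0 (f.k a) (A.e f.k0 x) * ext (f.Y a z) x)
    rw [ext_val, ← mul_smul_comm, ← ht, ← mul_assoc, gd.mul (f.sub0 _ h') (f.sub a x h) (f.sub0 _ h'),
      gd.one (f.sub0 _ h'), one_mul]
  | some a, some b, ⟨x, h, e0⟩, ⟨y, h', e1⟩ => by
    subst e0
    obtain rfl := Subtype.ext e1
    obtain ⟨s, hs⟩ := ((f.law z ρ r e e').2 a y h).2.1 b h'
    refine ⟨s, ?_⟩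
    change ext (f.Y a z) y * wv ρ (ext (f.γ a b) y) =
      s • (z.g (f.k a) (f.k b) (A.e (f.k a) y) * ext (f.Y b z) y)
    rw [ext_val, ext_val, ext_val, hs, smul_mul_assoc, mul_assoc, ← wv_mul, f.cy.mul _ _ _ _ h' h h',
      f.cy.one h', wv_one, mul_one]

theorem Y_nat {φ h} (r : Rel z ρ) (r' : Rel z' ρ') (e : z.x = p) (e' : z.R = 0)
    (b : IB A z z' φ h) : ∀ {k}, c ∈ (wc f).V k →
      ∃ s : ℂ, φ (ik f k) (A.e (ik f k) c) * YY f k z c = s • (YY f k z' c * h)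
  | none, a => let ⟨q, h1, h2, b⟩ := b; (f.nat z z' ρ ρ' q h1 h2 φ h r r' e e' b).1 c a
  | some a, ⟨x, a', e0⟩ => by
    subst e0
    obtain ⟨q, h1, h2, b⟩ := b
    simpa only [YY, ik, ext_val] using (f.nat z z' ρ ρ' q h1 h2 φ h r r' e e' b).2 a x a'

theorem Y_ct {T : Type} [TopologicalSpace T] {F : T → Dat C A.N n} {W : Set T} {r : ℝ} {h1 : 1 < r}
    {h2 : r ≤ A.R} (hW : IsOpen W) (fa : FamOn (A.res r h1 h2) l F W)
    (h : ∀ t ∈ W, (F t).x = p ∧ (F t).R = 0 ∧ ∃ ρ, Rel (F t) ρ) :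
    ∀ k, ContinuousOn (fun y : T × C => YY f k (F y.1) y.2) (W ×ˢ (wc f).V k)
  | none => (f.cont T F W r h1 h2 fa h).1
  | some a => by
    rintro ⟨t, _⟩ ⟨b, x, b', rfl⟩
    refine (((Topology.IsOpenEmbedding.id.prodMap oe).continuousAt_iff (x := (t, x))).1
      ?_).continuousWithinAt
    simpa only [comp_def, YY, Prod.map, ext_val, id] using ((f.cont T F W r h1 h2 fa h).2 a).continuousAt
      ((hW.prod (f.cy.opn a)).mem_nhds ⟨b, b'⟩)

end flt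

/-- **TOPB** -/
theorem topb : TOPB := fun S B hy Sy hf => by
  haveI := B.T.std.t2
  have hn : 0 < S.n := hy.pos
  have k1 : ∀ a, ∀ x ∈ Sy.U a, (Sy.F a x).lam = 1 ∧ (Sy.F a x).x = S.p ∧ (Sy.F a x).R = 0 :=
    fun a x h => ⟨(congrArg Mod.lam ((Sy.pt a x h).trans (congrFun hf x))).trans
      ((B.lam 1 x).trans (by simp)), (congrArg Mod.x ((Sy.pt a x h).trans (congrFun hf x))).trans (B.x 1 x),
      (Sy.ob a x h).2⟩
  have k2 : ∀ a, ∀ x ∈ Sy.U a, ∀ ρ, B.R.Rel B.R.i0 (Sy.F a x) ρ →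
      ∃ ρ' : Rep S.g S.n (deg S.D), ρ'.1 = ρ ∧ ρ'.pt = x := fun a x h ρ r => by
    obtain ⟨ρ0, rfl⟩ := Quot.exists_rep x
    obtain ⟨z, e, r0⟩ := B.one ρ0
    obtain ⟨φ, u, -, b⟩ := P275MM.pt_eq_ib.1
      ((e.trans ((congrFun hf _).symm.trans (Sy.pt a _ h).symm) :) :
        Ob.pt (τ := tauX S.n) ⟨z.1, z.2⟩ = Ob.pt ⟨_, Sy.ob a _ h⟩)
    obtain ⟨c, e'⟩ := P275B.rel_ib B.R.toRHD r0 r b
    rw [(k1 a _ h).2.2, smul_zero, NormedSpace.exp_zero, one_mul] at e'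
    have d := b.det_h (.of z.2)
    have e2 : wv ρ (P275RH.cwd S.g) = P275ST.zeta S.n (deg S.D) • 1 := by
      rw [cj_wv (cj_symm e' d) (P275RL.det_inv_ne d), wv_rep, Matrix.mul_smul, Matrix.mul_one,
        Matrix.smul_mul, nonsing_inv_mul _ (P275RL.det_inv_ne d).isUnit]
    exact ⟨⟨ρ, (P275NB.wv_cwd ρ).symm.trans e2⟩, rfl,
      P275NB.rep_pt_eq.2 (P275NB.cj_conj hn d e')⟩
  have k3 : ∀ c : {c : Sy.ι × XB S.g S.n (deg S.D) // c.2 ∈ Sy.U c.1}, ∃ O, IsOpen O ∧ c.1.2 ∈ O ∧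
      O ⊆ Sy.U c.1.1 ∧ (∃ r h1 h2, FamOn (B.T.A.res r h1 h2) B.T.l (Sy.F c.1.1) O) ∧
      ∃ ρ : _ → Rep S.g S.n (deg S.D), ContinuousOn ρ O ∧
        ∀ x ∈ O, (ρ x).pt = x ∧ B.R.Rel B.R.i0 (Sy.F c.1.1 x) (ρ x).1 := by
    rintro ⟨⟨a, x⟩, h⟩
    obtain ⟨W, hW, ρ, cρ, r⟩ := B.R.cont B.R.i0 _ _ x (Sy.fam a x h)
      (eventually_of_mem ((Sy.op a).mem_nhds h) fun s b => ⟨(k1 a s b).1,
        (k1 a s b).2.1.symm ▸ B.R.hp, (k1 a s b).2.2.symm ▸ P275NB.gen_zero S.adm.cop⟩)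
    obtain ⟨q, h1, h2, V, hV, fa⟩ := Sy.fam a x h
    obtain ⟨O, s, o, m⟩ := mem_nhds_iff.1 (inter_mem (inter_mem hW hV) ((Sy.op a).mem_nhds h))
    haveI : Nonempty (Rep S.g S.n (deg S.D)) := ⟨x.out⟩
    choose! ρ' e e' using fun y (b : y ∈ O) => k2 a y (s b).2 _ (r y (s b).1.1)
    exact ⟨O, o, m, fun y b => (s b).2, ⟨q, h1, h2, P275MB.FamOn.sub fa fun y b => (s b).1.2⟩, ρ',
      Topology.IsInducing.subtypeVal.continuousOn_iff.2 ((cρ.mono fun y b => (s b).1.1).congr e),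
      fun y b => ⟨e' y b, (e y b).symm ▸ r y (s b).1.1⟩⟩
  choose O op mem sub fa ρ ct h using k3
  refine ⟨wc B.R.flt, B.R.flt.k0, _, fun c a => (B.R.flt.sub0 c a).1, fun _ => rfl,
    iso_of _ Sy.tb op (fun x => (Sy.cov x).elim fun a b => ⟨⟨(a, x), b⟩, mem _⟩) ct
      (fun a x b => (h a x b).1) (fun a k => (a.1.1, ik _ k))
      (fun a k y => YY B.R.flt k (Sy.F a.1.1 y.1) y.2) (fun a k y b => ⟨sub a b.1, V_sub b.2⟩)
      (fun a k => ?_) (fun a k y b => Y_ne (h a _ b.1).2 (k1 _ _ (sub a b.1)).2.1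
        (k1 _ _ (sub a b.1)).2.2 b.2) fun a b k m y ha hb => ?_⟩
  · obtain ⟨r, h1, h2, fa⟩ := fa a
    exact Y_ct (op a) fa (fun t b => ⟨(k1 _ _ (sub a b)).2.1, (k1 _ _ (sub a b)).2.2, _,
      (h a t b).2⟩) k
  have i := Sy.ib (sub a ha.1) (sub b hb.1)
  have d := Sy.det_h (sub a ha.1) (sub b hb.1)
  obtain ⟨-, e1, e2⟩ := k1 _ _ (sub b hb.1)
  obtain ⟨c, e⟩ := P275B.rel_ib B.R.toRHD (h b _ hb.1).2 (h a _ ha.1).2 i
  rw [(k1 _ _ (sub a ha.1)).2.2, smul_zero, NormedSpace.exp_zero, one_mul] at e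
  obtain ⟨s, hs⟩ := Y_law (Sy.gd (sub b hb.1)) (h b _ hb.1).2 e1 e2 ha.2 hb.2
  obtain ⟨s', hs'⟩ := Y_nat (h b _ hb.1).2 (h a _ ha.1).2 e1 e2 i ha.2
  obtain ⟨t, ht⟩ := ex_smul_symm (det_mul_ne (i.det (V_sub ha.2))
    (Y_ne (h b _ hb.1).2 e1 e2 ha.2)) hs'
  refine ⟨.mkOfDetNeZero _ d, t * s, funext fun j => ?_, ?_⟩
  · refine (Units.eq_mul_inv_iff_mul_eq _).2 ?_
    change ((ρ a y.1).1 j).1 * Sy.h _ _ _ = Sy.h _ _ _ * ((ρ b y.1).1 j).1
    rw [e j, mul_assoc, mul_inv_can d]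
  · change _ * Sy.h _ _ _ = _ • (Sy.Φ _ _ _ _ _ * _ * _)
    rw [mul_assoc, cj_semi e d, ← mul_assoc, ht, smul_mul_assoc, mul_assoc, hs, mul_smul_comm,
      smul_smul, mul_assoc]

end Vale.Agent.P275TO
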